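import Mathlib

/-! Ricci flow on a smooth manifold, written in the charts of its atlas. -/

open Set
open scoped Manifold ContDiff

noncomputable section

namespace Vale.Agent.P244

/-- Euclidean space of dimension `n`. -/
abbrev E (n : ℕ) : Type := EuclideanSpace ℝ (Fin n)

/-- A symmetric two-tensor in coordinates: a matrix `g_ij(y)` at each point. -/
abbrev Tensor (n : ℕ) : Type := E n → Matrix (Fin n) (Fin n) ℝ

variable {n : ℕ}

/-- The coordinate derivative `∂_i f (y)`. -/
def pd (i : Fin n) (f : E n → ℝ) (y : E n) : ℝ := fderiv ℝ f y (EuclideanSpace.single i 1)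

/-- Christoffel symbols `Γ^k_ij` of the Levi-Civita connection. -/
def chris (g : Tensor n) (k i j : Fin n) (y : E n) : ℝ :=
  (1 / 2) * ∑ l, (g y)⁻¹ k l *
    (pd i (fun w => g w j l) y + pd j (fun w => g w i l) y - pd l (fun w => g w i j) y)

/-- The Ricci tensor `R_ij = ∂_k Γ^k_ij - ∂_j Γ^k_ik + Γ^k_kl Γ^l_ij - Γ^k_jl Γ^l_ik`. -/
def ricci (g : Tensor n) (i j : Fin n) (y : E n) : ℝ :=
  ∑ k, (pd k (chris g k i j) y - pd j (chris g k i k) y +
    ∑ l, (chris g k k l y * chris g l i j y - chris g k j l y * chris g l i k y))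

/-- Scalar curvature `g^ij R_ij`. -/
def scal (g : Tensor n) (y : E n) : ℝ := ∑ i, ∑ j, (g y)⁻¹ i j * ricci g i j y

/-- A field of bilinear forms on the tangent spaces of `M`. -/
abbrev Form (n : ℕ) (M : Type) [TopologicalSpace M] [ChartedSpace (E n) M] : Type :=
  ∀ x : M, TangentSpace (𝓡 n) x →L[ℝ] TangentSpace (𝓡 n) x →L[ℝ] ℝ

variable {M : Type} [TopologicalSpace M] [ChartedSpace (E n) M]

/-- The coefficients `g(∂_i, ∂_j)` of a field of bilinear forms in the chart `e`. -/
def coeff (g : Form n M) (e : OpenPartialHomeomorph M (E n)) : Tensor n := fun y =>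
  Matrix.of fun i j => g (e.symm y)
    (mfderiv (𝓡 n) (𝓡 n) e.symm y (EuclideanSpace.single i (1 : ℝ)))
    (mfderiv (𝓡 n) (𝓡 n) e.symm y (EuclideanSpace.single j (1 : ℝ)))

/-- `g t`, `0 ≤ t < T`, is a smooth Ricci flow: in every chart the coefficients are smooth
functions of time and place on `[0, T) × (chart image)`, they form a symmetric positive definite
matrix, and `∂_t g_ij = -2 R_ij`. -/
def IsRicciFlow (g : ℝ → Form n M) (T : ℝ) : Prop :=
  ∀ e ∈ atlas (E n) M,
    (∀ i j, ContDiffOn ℝ ∞ (fun p : ℝ × E n => coeff (g p.1) e p.2 i j) (Ico 0 T ×ˢ e.target)) ∧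
    ∀ t ∈ Ico 0 T, ∀ y ∈ e.target, (coeff (g t) e y).PosDef ∧
      ∀ i j, HasDerivWithinAt (fun s => coeff (g s) e y i j)
        (-2 * ricci (coeff (g t) e) i j y) (Ico 0 T) t

/-- The scalar curvature is bounded on `M × [0, T)`. -/
def ScalBounded (g : ℝ → Form n M) (T : ℝ) : Prop :=
  ∃ C : ℝ, ∀ t ∈ Ico 0 T, ∀ e ∈ atlas (E n) M, ∀ y ∈ e.target, |scal (coeff (g t) e) y| ≤ C

/-- The flow extends past `T`: a smooth Ricci flow on the same manifold, on a longer time
interval, agrees with `g` before `T`. -/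
def ExtendsPast (g : ℝ → Form n M) (T : ℝ) : Prop :=
  ∃ ε > (0 : ℝ), ∃ g' : ℝ → Form n M, IsRicciFlow g' (T + ε) ∧ ∀ t ∈ Ico 0 T, g' t = g t

/-- There is a closed connected manifold of dimension `n` with a smooth Ricci flow on a finite time
interval `[0, T)`, with bounded scalar curvature, which does not extend past `T`. -/
def Counter (n : ℕ) : Prop :=
  ∃ (M : Type) (_ : TopologicalSpace M) (_ : T2Space M) (_ : CompactSpace M)
    (_ : ConnectedSpace M) (_ : ChartedSpace (E n) M) (_ : IsManifold (𝓡 n) ∞ M)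
    (T : ℝ) (g : ℝ → Form n M),
    0 < T ∧ IsRicciFlow g T ∧ ScalBounded g T ∧ ¬ ExtendsPast g T

end Vale.Agent.P244
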